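import Mathlib

/-! Bin packing instances are lists `a : Fin n → ℚ` of item sizes. -/

namespace Vale.Agent.P302

/-- `OPT(I)`: the least number of bins (sets of items of total size at most `1`) into which the
items can be partitioned; `f i` is the bin of item `i`. -/
noncomputable def OPT {n : ℕ} (a : Fin n → ℚ) : ℕ :=
  sInf {k : ℕ | ∃ f : Fin n → Fin k, ∀ j : Fin k, ∑ i : Fin n with f i = j, a i ≤ 1}

/-- The set of distinct sizes. -/
def sizes {n : ℕ} (a : Fin n → ℚ) : Finset ℚ := Finset.univ.image a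

/-- The multiplicity `n_σ` of the size `σ`. -/
def mult {n : ℕ} (a : Fin n → ℚ) (σ : ℚ) : ℕ := (Finset.univ.filter fun i => a i = σ).card

/-- Configurations: vectors of naturals indexed by the distinct sizes, of total size at most `1`. -/
def Config {n : ℕ} (a : Fin n → ℚ) : Type :=
  {c : sizes a → ℕ // ∑ σ : sizes a, (σ : ℚ) * (c σ : ℚ) ≤ 1}

/-- The objective values `∑ z_c` of the feasible solutions `z` of the configuration LP. -/
def LPValues {n : ℕ} (a : Fin n → ℚ) : Set ℝ :=
  {v | ∃ z : Config a →₀ ℝ, (∀ c, 0 ≤ z c) ∧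
    (∀ σ : sizes a, (mult a σ : ℝ) ≤ ∑ c ∈ z.support, (c.1 σ : ℝ) * z c) ∧
    v = ∑ c ∈ z.support, z c}

/-- `LP(I)`: the value of the Gilmore-Gomory configuration LP. -/
noncomputable def LP {n : ℕ} (a : Fin n → ℚ) : ℝ := sInf (LPValues a)

end Vale.Agent.P302
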