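import Mathlib

/-! The nested gadget behind the unbounded gap. -/

namespace Vale.Agent.P302

open Multiset

abbrev Tri : Type := ℚ × ℚ × ℚ

/-- number of triples whose interval covers the cut just above `p` -/
def cov (Q : Multiset Tri) (p : ℚ) : ℕ := Q.countP fun τ => τ.1 ≤ p ∧ p < τ.2.1

structure Data where
  y : ℚ
  A : Multiset ℚ
  B : Multiset ℚ
  J : Multiset ℚ
  T : Multiset Tri

structure Good (K D j M : ℕ) (x δ : ℚ) (G : Data) : Prop where
  hAB : G.A + {G.y} = G.B + {x}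
  hZ : ∀ z ∈ G.A + {G.y}, x ≤ z ∧ z ≤ x + δ
  hJ : ∀ d ∈ G.J, 0 < d ∧ d ≤ δ
  hT : ∀ τ ∈ G.T, τ.1 + τ.2.2 ≤ τ.2.1
  hTa : G.T.map (fun τ => τ.1) = j • G.A
  hTb : G.T.map (fun τ => τ.2.1) = j • G.B
  hTd : ∀ v : ℚ, v ≠ 0 → (G.T.map fun τ => τ.2.2).count v = D * G.J.count v
  hIP : ∀ Q : Multiset Tri,
    (∀ τ ∈ Q, τ.1 ∈ G.A + {G.y} ∧ τ.2.1 ∈ G.A + {G.y} ∧ τ.1 + τ.2.2 ≤ τ.2.1) →
    card (G.J - Q.map fun τ => τ.2.2) ≤ M → (∀ p, cov Q p ≤ K) →
    ∃ p, x ≤ p ∧ p ≤ x + δ ∧ j ≤ cov Q p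

lemma exists_lower (J : Multiset ℚ) (h : ∀ d ∈ J, 0 < d) : ∃ μ : ℚ, 0 < μ ∧ ∀ d ∈ J, μ < d := by
  induction J using Multiset.induction_on with
  | empty => exact ⟨1, one_pos, by simp⟩
  | cons a s ih =>
    obtain ⟨μ, h0, h1⟩ := ih fun d hd => h d (mem_cons_of_mem hd)
    have ha := h a (mem_cons_self a s)
    refine ⟨min μ (a / 2), lt_min h0 (by linarith), fun d hd => ?_⟩
    rcases mem_cons.1 hd with rfl | hd
    · exact (min_le_right _ _).trans_lt (by linarith)
    · exact (min_le_left _ _).trans_lt (h1 d hd)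

lemma map_fsum {ι α β : Type*} (s : Finset ι) (f : ι → Multiset α) (g : α → β) :
    (∑ i ∈ s, f i).map g = ∑ i ∈ s, (f i).map g :=
  map_sum (Multiset.mapAddMonoidHom g) f s

lemma sum_range_double {α : Type*} [AddCommMonoid α] (f : ℕ → α) (n : ℕ) :
    ∑ t ∈ Finset.range (2 * n), f t = ∑ s ∈ Finset.range n, (f (2 * s) + f (2 * s + 1)) := by
  induction n with
  | zero => simp
  | succ n ih =>
    rw [show 2 * (n + 1) = 2 * n + 1 + 1 by ring, Finset.sum_range_succ, Finset.sum_range_succ, ih,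
      Finset.sum_range_succ, add_assoc]

lemma card_le_of_cover (K : ℕ) (Q : Multiset Tri) (hK : ∀ p, cov Q p ≤ K) (E : Multiset ℚ) :
    ∀ R : Multiset Tri, R ≤ Q → (∀ τ ∈ R, ∃ p ∈ E, τ.1 ≤ p ∧ p < τ.2.1) →
      card R ≤ K * card E := by
  induction E using Multiset.induction_on with
  | empty =>
    intro R _ h
    have : R = 0 := eq_zero_of_forall_notMem fun τ hτ => by simpa using h τ hτ
    simp [this]
  | cons p E ih =>
    intro R hR h
    have h1 := card_eq_countP_add_countP (fun τ : Tri => τ.1 ≤ p ∧ p < τ.2.1) R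
    have h2 : R.countP (fun τ : Tri => τ.1 ≤ p ∧ p < τ.2.1) ≤ K :=
      (countP_le_of_le _ hR).trans (hK p)
    have h3 := ih (R.filter fun τ : Tri => ¬ (τ.1 ≤ p ∧ p < τ.2.1))
      ((filter_le _ _).trans hR) fun τ hτ => by
        obtain ⟨h4, h5⟩ := mem_filter.1 hτ
        obtain ⟨q, hq, h6⟩ := h τ h4
        rcases mem_cons.1 hq with rfl | hq
        · exact absurd h6 h5
        · exact ⟨q, hq, h6⟩
    rw [← countP_eq_card_filter] at h3
    rw [card_cons, mul_add, mul_one]
    omega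

lemma good_zero (K D M : ℕ) (x δ : ℚ) (hδ : 0 < δ) : ∃ G, Good K D 0 M x δ G := by
  refine ⟨⟨x + δ, {x}, {x + δ}, 0, 0⟩, ⟨add_comm _ _, ?_, by simp, by simp, by simp, by simp,
    by simp, fun Q _ _ _ => ⟨x, le_rfl, by linarith, Nat.zero_le _⟩⟩⟩
  intro z hz
  simp only [mem_add, mem_singleton] at hz
  rcases hz with rfl | rfl <;> constructor <;> linarith

lemma exists_seq {K D j : ℕ} (h : ∀ (M : ℕ) (x δ : ℚ), 0 < δ → ∃ G, Good K D j M x δ G)
    (M₀ : ℕ) (δ₀ : ℚ) (hδ₀ : 0 < δ₀) (xs : ℕ → ℚ) :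
    ∃ (G : ℕ → Data) (δs : ℕ → ℚ),
      (∀ t, Good K D j (M₀ + K * ∑ s ∈ Finset.range t, card ((G s).A + {(G s).y})) (xs t) (δs t)
        (G t)) ∧ (∀ t, δs t ≤ δ₀) ∧ ∀ s t, s < t → ∀ d ∈ (G s).J, δs t < d := by
  choose g hg using h
  have hl := fun (M : ℕ) (x δ : ℚ) (hδ : 0 < δ) =>
    exists_lower (g M x δ hδ).J fun d hd => ((hg M x δ hδ).hJ d hd).1
  choose μ hμ0 hμ using hl
  let st : ℕ → ℕ × {δ : ℚ // 0 < δ} := fun t =>
    Nat.rec (M₀, ⟨δ₀, hδ₀⟩) (fun t s =>
      (s.1 + K * card ((g s.1 (xs t) s.2.1 s.2.2).A + {(g s.1 (xs t) s.2.1 s.2.2).y}),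
        ⟨min s.2.1 (μ s.1 (xs t) s.2.1 s.2.2), lt_min s.2.2 (hμ0 _ _ _ _)⟩)) t
  let G : ℕ → Data := fun t => g (st t).1 (xs t) (st t).2.1 (st t).2.2
  have e1 : ∀ t, (st (t + 1)).1 = (st t).1 + K * card ((G t).A + {(G t).y}) := fun _ => rfl
  have e2 : ∀ t, (st (t + 1)).2.1 = min (st t).2.1 (μ (st t).1 (xs t) (st t).2.1 (st t).2.2) :=
    fun _ => rfl
  have e3 : ∀ t, (st t).1 = M₀ + K * ∑ s ∈ Finset.range t, card ((G s).A + {(G s).y}) := by
    intro t
    induction t with
    | zero => simp [st]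
    | succ t ih => rw [e1, ih, Finset.sum_range_succ]; ring
  have e4 : Antitone fun t => (st t).2.1 :=
    antitone_nat_of_succ_le fun t => by rw [e2]; exact min_le_left _ _
  refine ⟨G, fun t => (st t).2.1, fun t => ?_, fun t => e4 (Nat.zero_le t), fun s t hst d hd => ?_⟩
  · rw [← e3]; exact hg _ _ _ _
  · have h1 : (st t).2.1 ≤ (st (s + 1)).2.1 := e4 hst
    rw [e2] at h1
    exact (h1.trans (min_le_right _ _)).trans_lt (hμ _ _ _ _ d hd)

lemma good_succ {K D j : ℕ} (hD : 0 < D)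
    (h : ∀ (M : ℕ) (x δ : ℚ), 0 < δ → ∃ G, Good K D j M x δ G)
    (M : ℕ) (x δ : ℚ) (hδ : 0 < δ) : ∃ G, Good K D (j + 1) M x δ G := by
  classical
  set n : ℕ := D * (M + 1) with hn
  have hn0 : 0 < n := by positivity
  have hnq : (1 : ℚ) ≤ n := by exact_mod_cast hn0
  set e : ℚ := δ / (2 * n) with he
  have he0 : 0 < e := by positivity
  have hδe : δ = 2 * n * e := by rw [he]; field_simp
  let xs : ℕ → ℚ := fun t => x + t * e
  obtain ⟨G, δs, hG, hδs, hsep⟩ := exists_seq h (M + K * (2 * n)) (e / 4) (by positivity) xs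
  let Z : ℕ → Multiset ℚ := fun t => (G t).A + {(G t).y}
  have hZ : ∀ t, ∀ z ∈ Z t, xs t ≤ z ∧ z ≤ xs t + e / 4 := fun t z hz =>
    ⟨((hG t).hZ z hz).1, ((hG t).hZ z hz).2.trans (by linarith [hδs t])⟩
  have hZB : ∀ t, Z t = (G t).B + {xs t} := fun t => (hG t).hAB
  have hy : ∀ t, (G t).y ∈ Z t := fun t => by simp [Z]
  have hxs : ∀ t, xs (t + 1) = xs t + e := fun t => by simp only [xs]; push_cast; ring
  have hmono : ∀ s t, s ≤ t → xs s ≤ xs t := fun s t hst => by
    have : (s : ℚ) ≤ t := by exact_mod_cast hst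
    simp only [xs]; nlinarith
  have hlast : xs (2 * n) = x + δ := by simp only [xs]; push_cast; rw [hδe]
  have hx0 : xs 0 = x := by simp [xs]
  have hmem : ∀ z ∈ (∑ t ∈ Finset.range (2 * n), Z t) + {xs (2 * n)},
      (∃ t < 2 * n, z ∈ Z t) ∨ z = xs (2 * n) := by
    intro z hz
    rcases mem_add.1 hz with hz | hz
    · obtain ⟨t, ht, hz⟩ := Multiset.mem_sum.1 hz
      exact Or.inl ⟨t, Finset.mem_range.1 ht, hz⟩
    · exact Or.inr (mem_singleton.1 hz)
  have hrange : ∀ z ∈ (∑ t ∈ Finset.range (2 * n), Z t) + {xs (2 * n)},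
      x ≤ z ∧ z ≤ xs (2 * n) := by
    intro z hz
    rcases hmem z hz with ⟨t, ht, hz⟩ | rfl
    · have h1 := hZ t z hz
      have h2 := hmono 0 t (Nat.zero_le _)
      have h3 := hmono (t + 1) (2 * n) ht
      rw [hxs] at h3
      constructor <;> linarith
    · exact ⟨hx0 ▸ hmono 0 _ (Nat.zero_le _), le_rfl⟩
  refine ⟨⟨xs (2 * n), ∑ t ∈ Finset.range (2 * n), Z t,
    ∑ t ∈ Finset.range (2 * n), ((G t).B + {xs (t + 1)}),
    replicate (M + 1) (3 * e / 2) + ∑ t ∈ Finset.range (2 * n), (G t).J,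
    ∑ t ∈ Finset.range (2 * n), ((G t).T + replicate j ((G t).y, xs (t + 1), 0)) +
      ∑ s ∈ Finset.range n, ({(xs (2 * s), xs (2 * s + 1 + 1), 3 * e / 2)} +
        ((G (2 * s)).B + (G (2 * s + 1)).B + {xs (2 * s + 1)}).map fun z => (z, z, 0))⟩,
    ⟨?_, ?_, ?_, ?_, ?_, ?_, ?_, ?_⟩⟩
  · simp only [hZB, Finset.sum_add_distrib, add_assoc]
    rw [← Finset.sum_range_succ (fun t => ({xs t} : Multiset ℚ)), Finset.sum_range_succ', hx0]
  · intro z hz
    rw [← hlast]; exact hrange z hz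
  · intro d hd
    rcases mem_add.1 hd with hd | hd
    · rw [eq_of_mem_replicate hd]
      exact ⟨by positivity, by nlinarith⟩
    · obtain ⟨t, _, hd⟩ := Multiset.mem_sum.1 hd
      have := (hG t).hJ d hd
      exact ⟨this.1, by nlinarith [hδs t]⟩
  · intro τ hτ
    rcases mem_add.1 hτ with hτ | hτ
    · obtain ⟨t, _, hτ⟩ := Multiset.mem_sum.1 hτ
      rcases mem_add.1 hτ with hτ | hτ
      · exact (hG t).hT τ hτ
      · rw [eq_of_mem_replicate hτ]
        have := hZ t _ (hy t)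
        simp only [hxs]; linarith
    · obtain ⟨s, _, hτ⟩ := Multiset.mem_sum.1 hτ
      rcases mem_add.1 hτ with hτ | hτ
      · rw [mem_singleton.1 hτ]
        simp only [hxs]; linarith
      · obtain ⟨z, _, rfl⟩ := mem_map.1 hτ
        simp
  · simp only [Multiset.map_add, map_fsum, map_replicate, map_singleton, Multiset.map_map,
      Function.comp_def, map_id']
    rw [succ_nsmul]
    congr 1
    · rw [Finset.smul_sum]
      refine Finset.sum_congr rfl fun t _ => ?_
      rw [(hG t).hTa, ← nsmul_singleton, ← smul_add]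
    · rw [sum_range_double]
      refine Finset.sum_congr rfl fun s _ => ?_
      rw [hZB, hZB]; abel
  · simp only [Multiset.map_add, map_fsum, map_replicate, map_singleton, Multiset.map_map,
      Function.comp_def, map_id']
    rw [succ_nsmul]
    congr 1
    · rw [Finset.smul_sum]
      refine Finset.sum_congr rfl fun t _ => ?_
      rw [(hG t).hTb, ← nsmul_singleton, ← smul_add]
    · rw [sum_range_double]
      refine Finset.sum_congr rfl fun s _ => ?_
      abel
  · intro v hv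
    simp only [Multiset.map_add, map_fsum, map_replicate, map_singleton, Multiset.map_map,
      Function.comp_def, map_const', count_add, count_sum', count_replicate, count_singleton,
      if_neg hv.symm, add_zero, (hG _).hTd v hv, Finset.sum_const, Finset.card_range,
      ← Finset.mul_sum, smul_eq_mul, eq_comm (a := v)]
    split_ifs <;> simp [hn]; ring
  · intro Q hQ hcard hK
    have hroot : 3 * e / 2 ∈ Q.map fun τ => τ.2.2 := by
      by_contra hc
      have h1 := count_le_card (3 * e / 2)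
        ((replicate (M + 1) (3 * e / 2) + ∑ t ∈ Finset.range (2 * n), (G t).J) -
          Q.map fun τ => τ.2.2)
      rw [count_sub, count_eq_zero_of_notMem hc, count_add, count_replicate_self] at h1
      simp only at hcard
      omega
    obtain ⟨τ₀, hτ₀, hd₀⟩ := mem_map.1 hroot
    obtain ⟨ha₀, hb₀, hf₀⟩ := hQ τ₀ hτ₀
    have hb₁ := (hrange _ hb₀).2
    rw [hd₀] at hf₀
    obtain ⟨t, ht, ha₁⟩ : ∃ t < 2 * n, τ₀.1 ∈ Z t := by
      rcases hmem _ ha₀ with h1 | h1
      · exact h1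
      · linarith
    have ha₂ := hZ t _ ha₁
    have ht1 : t + 1 < 2 * n := by
      by_contra hc
      have := hmono (2 * n) (t + 1) (by omega)
      rw [hxs] at this
      linarith
    have hxt := hxs t
    let P : Tri → Prop := fun τ => τ.1 ∈ Z (t + 1) ∧ τ.2.1 ∈ Z (t + 1)
    have hP₀ : ¬ P τ₀ := fun hP => by linarith [(hZ _ _ hP.2).2]
    let R : Multiset Tri := Q.filter fun τ => ¬ P τ ∧ τ.2.2 ∈ (G (t + 1)).J
    have hR : card R ≤ K * card ((∑ s ∈ Finset.range (t + 1), Z s) +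
        ∑ s ∈ Finset.range (2 * n), ({xs s + e / 2} : Multiset ℚ)) := by
      refine card_le_of_cover K Q hK _ R (filter_le _ _) fun τ hτ => ?_
      obtain ⟨h1, h2, h3⟩ := mem_filter.1 hτ
      obtain ⟨h4, h5, h6⟩ := hQ τ h1
      have h7 := ((hG _).hJ _ h3).1
      have h8 := (hrange _ h5).2
      obtain ⟨s, hs, h9⟩ : ∃ s < 2 * n, τ.1 ∈ Z s := by
        rcases hmem _ h4 with h1 | h1
        · exact h1
        · linarith
      by_cases hst : s < t + 1
      · exact ⟨τ.1, mem_add.2 (Or.inl (Multiset.mem_sum.2 ⟨s, Finset.mem_range.2 hst, h9⟩)),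
          le_rfl, by linarith⟩
      · refine ⟨xs s + e / 2, mem_add.2 (Or.inr (Multiset.mem_sum.2
          ⟨s, Finset.mem_range.2 hs, mem_singleton_self _⟩)), by linarith [(hZ s _ h9).2], ?_⟩
        have hnot : τ.2.1 ∉ Z s := by
          intro hb
          rcases (not_lt.1 hst).eq_or_lt with h10 | h10
          · exact h2 ⟨h10 ▸ h9, h10 ▸ hb⟩
          · have := hsep _ _ h10 _ h3
            linarith [((hG s).hZ _ hb).2, ((hG s).hZ _ h9).1]
        have hs1 := hxs s
        rcases hmem _ h5 with ⟨u, _, hu⟩ | hu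
        · rcases lt_trichotomy u s with h10 | h10 | h10
          · have := hmono (u + 1) s h10
            rw [hxs] at this
            linarith [(hZ u _ hu).2, (hZ s _ h9).1]
          · exact absurd (h10 ▸ hu) hnot
          · linarith [hmono (s + 1) u h10, (hZ u _ hu).1]
        · linarith [hmono (s + 1) (2 * n) hs]
    have hle : (G (t + 1)).J - (Q.filter P).map (fun τ => τ.2.2) ≤
        ((replicate (M + 1) (3 * e / 2) + ∑ t ∈ Finset.range (2 * n), (G t).J) -
          Q.map fun τ => τ.2.2) + R.map fun τ => τ.2.2 := by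
      refine le_iff_count.2 fun v => ?_
      by_cases hv : v ∈ (G (t + 1)).J
      · have h1 : count v (G (t + 1)).J ≤ count v (∑ t ∈ Finset.range (2 * n), (G t).J) :=
          count_le_of_le v (Finset.single_le_sum (f := fun t => (G t).J)
            (fun _ _ => zero_le) (Finset.mem_range.2 ht1))
        have h2 : count v (Q.map fun τ => τ.2.2) =
            count v ((Q.filter P).map fun τ => τ.2.2) + count v (R.map fun τ => τ.2.2) := by
          conv_lhs => rw [← filter_add_not P Q, Multiset.map_add, count_add]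
          congr 1
          simp only [count_map, R, filter_filter]
          congr 1
          refine filter_congr fun τ _ => ⟨fun h => ⟨h.1, h.2, h.1 ▸ hv⟩, fun h => ⟨h.1, h.2.1⟩⟩
        simp only [count_add, count_sub]
        omega
      · simp [count_sub, count_eq_zero_of_notMem hv]
    obtain ⟨p, hp1, hp2, hp3⟩ := (hG (t + 1)).hIP (Q.filter P)
      (fun τ hτ => ⟨(mem_filter.1 hτ).2.1, (mem_filter.1 hτ).2.2, (hQ τ (mem_filter.1 hτ).1).2.2⟩)
      (by
        have h1 := card_le_card hle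
        rw [card_add, card_map] at h1
        rw [card_add, card_sum, card_sum] at hR
        simp only [card_singleton, Finset.sum_const, Finset.card_range, smul_eq_mul, mul_one,
          mul_add, Z] at hR
        simp only at hcard
        omega)
      (fun p => (countP_le_of_le _ (filter_le _ _)).trans (hK p))
    have h1 := hδs (t + 1)
    have h2 := hmono 0 (t + 1) (Nat.zero_le _)
    have h3 := hmono (t + 1 + 1) (2 * n) ht1
    rw [hxs (t + 1)] at h3
    refine ⟨p, by linarith, by linarith, ?_⟩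
    have h4 : cov Q p = cov (Q.filter P) p + cov (Q.filter fun τ => ¬ P τ) p := by
      unfold cov
      rw [← countP_add, filter_add_not]
    have h5 : 0 < cov (Q.filter fun τ => ¬ P τ) p :=
      countP_pos.2 ⟨τ₀, mem_filter.2 ⟨hτ₀, hP₀⟩, by linarith, by linarith⟩
    omega

lemma exists_good (K D : ℕ) (hD : 0 < D) (j : ℕ) :
    ∀ (M : ℕ) (x δ : ℚ), 0 < δ → ∃ G, Good K D j M x δ G := by
  induction j with
  | zero => exact good_zero K D
  | succ j ih => exact good_succ hD ih

end Vale.Agent.P302
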