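import Vale.Agent.P302.Defs
import Vale.Agent.P302.Gadget

namespace Vale.Agent.P302

open Multiset

lemma lp_aux {n : ℕ} (a : Fin n → ℚ) (w : ℝ) (hw : 0 ≤ w) (S : Multiset (Multiset ℚ)) :
    (∀ b ∈ S, b.sum ≤ 1 ∧ ∀ σ ∈ b, σ ∈ sizes a) →
    ∃ z : Config a →₀ ℝ, (∀ c, 0 ≤ z c) ∧
      (∀ σ : sizes a, z.sum (fun c t => (c.1 σ : ℝ) * t) = count σ.1 S.sum * w) ∧
      z.sum (fun _ t => t) = card S * w := by
  classical
  induction S using Multiset.induction_on with
  | empty => exact fun _ => ⟨0, by simp, by simp, by simp⟩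
  | cons b S ih =>
    intro h
    obtain ⟨z, h1, h2, h3⟩ := ih fun b' hb' => h b' (mem_cons_of_mem hb')
    obtain ⟨h4, h5⟩ := h b (mem_cons_self b S)
    let c : Config a := ⟨fun σ => count σ.1 b, by
      rw [Finset.sum_coe_sort (sizes a) fun σ => σ * (count σ b : ℚ)]
      rw [Finset.sum_multiset_count_of_subset b (sizes a)
        (fun σ hσ => h5 σ (mem_toFinset.1 hσ))] at h4
      simpa [mul_comm] using h4⟩
    refine ⟨Finsupp.single c w + z, fun c' => ?_, fun σ => ?_, ?_⟩
    · rw [Finsupp.add_apply, Finsupp.single_apply]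
      exact add_nonneg (by split_ifs <;> simp [hw]) (h1 c')
    · rw [Finsupp.sum_add_index' (by simp) (fun _ _ _ => mul_add _ _ _),
        Finsupp.sum_single_index (by simp), h2, sum_cons, count_add]
      simp only [c]; push_cast; ring
    · rw [Finsupp.sum_add_index' (by simp) (fun _ _ _ => rfl),
        Finsupp.sum_single_index (by simp), h3, card_cons]
      push_cast; ring

lemma lp_mem {n : ℕ} (a : Fin n → ℚ) (D : ℕ) (hD : 0 < D) (S : Multiset (Multiset ℚ))
    (h1 : ∀ b ∈ S, b.sum ≤ 1) (h2 : S.sum = D • (Finset.univ.val.map a)) :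
    (card S : ℝ) * (1 / D) ∈ LPValues a := by
  classical
  have hD' : (0 : ℝ) < D := by exact_mod_cast hD
  obtain ⟨z, h3, h4, h5⟩ := lp_aux a (1 / D) (by positivity) S fun b hb =>
    ⟨h1 b hb, fun σ hσ => by
      have h6 : σ ∈ S.sum := mem_of_le (Multiset.single_le_sum (fun _ _ => zero_le) b hb) hσ
      rw [h2] at h6
      obtain ⟨i, _, rfl⟩ := mem_map.1 (mem_of_mem_nsmul h6)
      exact Finset.mem_image_of_mem a (Finset.mem_univ i)⟩
  refine ⟨z, h3, fun σ => ?_, h5.symm⟩
  have h6 := h4 σ
  rw [Finsupp.sum] at h6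
  rw [h6, h2, count_nsmul, count_map]
  have : mult a σ = card (filter (fun i => σ.1 = a i) Finset.univ.val) := by
    unfold mult
    rw [Finset.card_def, Finset.filter_val]
    congr 1
    exact filter_congr fun i _ => eq_comm
  rw [this]
  push_cast
  field_simp
  exact le_rfl

lemma lp_bdd {n : ℕ} (a : Fin n → ℚ) : BddBelow (LPValues a) :=
  ⟨0, by rintro v ⟨z, h1, _, rfl⟩; exact Finset.sum_nonneg fun c _ => h1 c⟩

def sa (z : ℚ) : ℚ := (1030 + 3 * z) / 3000
def sb (z : ℚ) : ℚ := (1090 - 3 * z) / 3000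
def su (z : ℚ) : ℚ := (880 + 3 * z) / 3000

lemma core (c : ℕ) (G : Data) (hG : Good (11 * c + 1) (11 * c + 2) (11 * c + 2) (11 * c) 0 1 G)
    (U : Multiset ℚ) (hJU : G.J ≤ U) (hU0 : ∀ d ∈ U, 0 ≤ d) (hU : card U = card G.A)
    (k : ℕ) (hk : k ≤ card G.A + c) (α β γ : Fin k → Multiset ℚ)
    (hα : ∑ j, α j = G.A) (hβ : ∑ j, β j = G.B) (hγ : ∑ j, γ j = U)
    (hfit : ∀ j, ((α j).map sa).sum + ((β j).map sb).sum + ((γ j).map su).sum ≤ 1) : False := by
  classical
  have hBA : card G.B = card G.A := by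
    have := congrArg card hG.hAB
    simpa using this.symm
  have mα : ∀ j, ∀ z ∈ α j, z ∈ G.A + {G.y} := fun j z hz =>
    mem_add.2 (Or.inl (hα ▸ Multiset.mem_sum.2 ⟨j, Finset.mem_univ j, hz⟩))
  have mβ : ∀ j, ∀ z ∈ β j, z ∈ G.A + {G.y} := fun j z hz => by
    rw [hG.hAB]
    exact mem_add.2 (Or.inl (hβ ▸ Multiset.mem_sum.2 ⟨j, Finset.mem_univ j, hz⟩))
  have mγ : ∀ j, ∀ z ∈ γ j, 0 ≤ z := fun j z hz =>
    hU0 z (hγ ▸ Multiset.mem_sum.2 ⟨j, Finset.mem_univ j, hz⟩)
  have hint : ∀ j, 1030 * card (α j) + 1087 * card (β j) + 880 * card (γ j) ≤ 3000 := by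
    intro j
    have h1 := card_nsmul_le_sum (s := (α j).map sa) (a := 1030 / 3000) fun v hv => by
      obtain ⟨z, hz, rfl⟩ := mem_map.1 hv
      have := (hG.hZ z (mα j z hz)).1
      unfold sa; linarith
    have h2 := card_nsmul_le_sum (s := (β j).map sb) (a := 1087 / 3000) fun v hv => by
      obtain ⟨z, hz, rfl⟩ := mem_map.1 hv
      have := (hG.hZ z (mβ j z hz)).2
      unfold sb; linarith
    have h3 := card_nsmul_le_sum (s := (γ j).map su) (a := 880 / 3000) fun v hv => by
      obtain ⟨z, hz, rfl⟩ := mem_map.1 hv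
      have := mγ j z hz
      unfold su; linarith
    simp only [card_map, nsmul_eq_mul] at h1 h2 h3
    have h4 : (1030 : ℚ) * card (α j) + 1087 * card (β j) + 880 * card (γ j) ≤ 3000 := by
      linarith [hfit j]
    exact_mod_cast h4
  let Reg : Finset (Fin k) :=
    Finset.univ.filter fun j => card (α j) = 1 ∧ card (β j) = 1 ∧ card (γ j) = 1
  have hcount : card G.A ≤ Reg.card + 11 * c := by
    have h1 : ∑ j, (9 * card (α j) + 11 * card (β j) + 4 * card (γ j)) ≤
        ∑ j : Fin k, (22 + if card (α j) = 1 ∧ card (β j) = 1 ∧ card (γ j) = 1 then 2 else 0) :=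
      Finset.sum_le_sum fun j _ => by
        have h2 := hint j
        generalize card (α j) = u, card (β j) = v, card (γ j) = w at h2 ⊢
        have hu : u ≤ 2 := by omega
        have hv : v ≤ 2 := by omega
        have hw : w ≤ 3 := by omega
        interval_cases u <;> interval_cases v <;> interval_cases w <;> simp_all
    rw [Finset.sum_add_distrib, Finset.sum_add_distrib, Finset.sum_add_distrib,
      ← Finset.mul_sum, ← Finset.mul_sum, ← Finset.mul_sum, ← card_sum, ← card_sum, ← card_sum,
      hα, hβ, hγ, ← Finset.sum_filter] at h1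
    simp only [Finset.sum_const, Finset.card_univ, Fintype.card_fin, smul_eq_mul] at h1
    change _ ≤ k * 22 + Reg.card * 2 at h1
    omega
  have one : ∀ s : Multiset ℚ, card s = 1 → s = {s.sum} := fun s hs => by
    obtain ⟨v, rfl⟩ := card_eq_one.1 hs
    simp
  let Q : Multiset Tri := ∑ j ∈ Reg, {((α j).sum, (β j).sum, (γ j).sum)}
  have hQc : card Q = Reg.card := by simp [Q, card_sum]
  have sub : ∀ φ : Fin k → Multiset ℚ, (∀ j ∈ Reg, card (φ j) = 1) →
      ∑ j ∈ Reg, ({(φ j).sum} : Multiset ℚ) ≤ ∑ j, φ j := fun φ hφ => by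
    rw [Finset.sum_congr rfl fun j hj => (one _ (hφ j hj)).symm]
    exact Finset.sum_le_sum_of_subset (Finset.subset_univ _)
  have hQa : Q.map (fun τ => τ.1) ≤ G.A := by
    simp only [Q, map_fsum, map_singleton]
    exact hα ▸ sub α fun j hj => (Finset.mem_filter.1 hj).2.1
  have hQb : Q.map (fun τ => τ.2.1) ≤ G.B := by
    simp only [Q, map_fsum, map_singleton]
    exact hβ ▸ sub β fun j hj => (Finset.mem_filter.1 hj).2.2.1
  have hQd : Q.map (fun τ => τ.2.2) ≤ U := by
    simp only [Q, map_fsum, map_singleton]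
    exact hγ ▸ sub γ fun j hj => (Finset.mem_filter.1 hj).2.2.2
  have hQ : ∀ τ ∈ Q, (τ.1 ∈ G.A + {G.y} ∧ τ.2.1 ∈ G.A + {G.y} ∧ τ.1 + τ.2.2 ≤ τ.2.1) ∧
      0 ≤ τ.2.2 := by
    intro τ hτ
    obtain ⟨j, hj, hτ⟩ := Multiset.mem_sum.1 hτ
    obtain ⟨-, h1, h2, h3⟩ := Finset.mem_filter.1 hj
    rw [mem_singleton.1 hτ]
    have h4 := hfit j
    have h5 := mα j
    have h6 := mβ j
    have h7 := mγ j
    rw [one _ h1] at h4 h5
    rw [one _ h2] at h4 h6
    rw [one _ h3] at h4 h7
    simp only [map_singleton, sum_singleton, sa, sb, su] at h4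
    exact ⟨⟨h5 _ (mem_singleton_self _), h6 _ (mem_singleton_self _), by dsimp only; linarith⟩,
      h7 _ (mem_singleton_self _)⟩
  have hcov : ∀ p, cov Q p ≤ 11 * c + 1 := by
    intro p
    have h1 : countP (fun τ : Tri => p < τ.2.1) Q =
        cov Q p + countP (fun τ : Tri => p < τ.1) Q := by
      unfold cov
      rw [countP_eq_countP_filter_add Q (fun τ : Tri => p < τ.2.1) (fun τ : Tri => τ.1 ≤ p),
        countP_filter, countP_filter]
      congr 1
      · exact countP_congr rfl fun τ _ => propext and_comm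
      · refine countP_congr rfl fun τ hτ => propext ⟨fun h => not_le.1 h.2, fun h => ?_⟩
        have := hQ τ hτ
        exact ⟨by linarith [this.1.2.2, this.2], not_le.2 h⟩
    have h2 := countP_le_of_le (fun v => p < v) hQb
    have h3 := congrArg (countP fun v => p < v) hG.hAB
    have h4 := congrArg (countP fun v => p < v) (add_tsub_cancel_of_le hQa)
    have h5 := countP_le_card (fun v => p < v) (G.A - Q.map fun τ => τ.1)
    have h6 := countP_le_card (fun v => p < v) ({G.y} : Multiset ℚ)
    rw [card_sub hQa, card_map, hQc] at h5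
    rw [countP_add, countP_add] at h3
    rw [countP_add, countP_map, ← countP_eq_card_filter] at h4
    rw [countP_map, ← countP_eq_card_filter] at h2
    rw [card_singleton] at h6
    omega
  obtain ⟨p, -, -, hp⟩ := hG.hIP Q (fun τ hτ => (hQ τ hτ).1) (by
    have h1 := card_le_card (tsub_le_tsub_right hJU (Q.map fun τ => τ.2.2))
    rw [card_sub hQd, card_map, hQc] at h1
    omega) hcov
  have := hcov p
  omega

def sz (i : Fin 3 × ℚ) : ℚ := ![sa, sb, su] i.1 i.2

def part (t : Fin 3) (S : Multiset (Fin 3 × ℚ)) : Multiset ℚ :=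
  (S.filter fun i => i.1 = t).map fun i => i.2

lemma part_add (t : Fin 3) (S S' : Multiset (Fin 3 × ℚ)) :
    part t (S + S') = part t S + part t S' := by simp [part, filter_add]

lemma part_sum {ι : Type*} (t : Fin 3) (s : Finset ι) (f : ι → Multiset (Fin 3 × ℚ)) :
    part t (∑ j ∈ s, f j) = ∑ j ∈ s, part t (f j) := by
  classical
  induction s using Finset.induction_on with
  | empty => simp [part]
  | insert i s hi ih => rw [Finset.sum_insert hi, Finset.sum_insert hi, part_add, ih]

lemma part_map (t t' : Fin 3) (S : Multiset ℚ) :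
    part t (S.map fun z => (t', z)) = if t' = t then S else 0 := by
  unfold part
  rw [filter_map]
  split_ifs with h <;> simp [h]

lemma sum_sz (S : Multiset (Fin 3 × ℚ)) : (S.map sz).sum =
    ((part 0 S).map sa).sum + ((part 1 S).map sb).sum + ((part 2 S).map su).sum := by
  induction S using Multiset.induction_on with
  | empty => simp [part]
  | cons i S ih =>
    obtain ⟨t, z⟩ := i
    rw [map_cons, sum_cons, ih, ← singleton_add, part_add, part_add, part_add]
    fin_cases t <;> simp [part, sz, filter_singleton] <;> ring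

theorem gap (c : ℕ) : ∃ (n : ℕ) (a : Fin n → ℚ), (∀ i, 1 / 4 < a i ∧ a i < 1 / 2) ∧
    ∃ P : ℕ, (P : ℝ) ∈ LPValues a ∧ P + c < OPT a := by
  classical
  set D := 11 * c + 2 with hDdef
  have hD : 0 < D := by omega
  obtain ⟨G, hG⟩ := exists_good (11 * c + 1) D hD D (11 * c) 0 1 one_pos
  have hTc : card G.T = D * card G.A := by simpa using congrArg card hG.hTa
  set r := count 0 (G.T.map fun τ => τ.2.2) with hr
  have hJ0 : count 0 G.J = 0 := count_eq_zero_of_notMem fun h => lt_irrefl _ (hG.hJ 0 h).1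
  have hTd : (G.T.map fun τ => τ.2.2) = D • G.J + replicate r 0 := by
    ext v
    by_cases hv : v = 0
    · rw [hv, count_add, count_nsmul, hJ0, count_replicate_self, ← hr]; simp
    · rw [hG.hTd v hv, count_add, count_nsmul, count_replicate, if_neg (Ne.symm hv), add_zero]
  have hrc : D * card G.A = D * card G.J + r := by simpa [hTc] using congrArg card hTd
  have hJA : card G.J ≤ card G.A := Nat.le_of_mul_le_mul_left (by omega) hD
  have hr' : r = D * (card G.A - card G.J) := by rw [Nat.mul_sub]; omega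
  let U : Multiset ℚ := G.J + replicate (card G.A - card G.J) 0
  have hTU : (G.T.map fun τ => τ.2.2) = D • U := by
    rw [hTd, hr', smul_add, nsmul_replicate]
  have hU0 : ∀ d ∈ U, 0 ≤ d ∧ d ≤ 1 := fun d hd => by
    rcases mem_add.1 hd with hd | hd
    · exact ⟨(hG.hJ d hd).1.le, (hG.hJ d hd).2⟩
    · rw [eq_of_mem_replicate hd]; norm_num
  let X : Multiset (Fin 3 × ℚ) :=
    G.A.map (fun z => (0, z)) + G.B.map (fun z => (1, z)) + U.map fun z => (2, z)
  let lab : Fin X.toList.length → Fin 3 × ℚ := X.toList.get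
  have hlab : Finset.univ.val.map lab = X := by
    rw [Fin.univ_val_map, List.ofFn_get, coe_toList]
  have hsz : ∀ i, 1 / 4 < sz (lab i) ∧ sz (lab i) < 1 / 2 := by
    intro i
    have hi : lab i ∈ X := hlab ▸ mem_map_of_mem lab (Finset.mem_univ_val i)
    rcases mem_add.1 hi with hi | hi
    · rcases mem_add.1 hi with hi | hi
      · obtain ⟨z, hz, h⟩ := mem_map.1 hi
        have := hG.hZ z (mem_add.2 (Or.inl hz))
        rw [← h]
        simp only [sz, Matrix.cons_val_zero, sa]
        constructor <;> linarith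
      · obtain ⟨z, hz, h⟩ := mem_map.1 hi
        have := hG.hZ z (hG.hAB ▸ mem_add.2 (Or.inl hz))
        rw [← h]
        simp only [sz, Matrix.cons_val_one, Matrix.cons_val_zero, sb]
        constructor <;> linarith
    · obtain ⟨z, hz, h⟩ := mem_map.1 hi
      have := hU0 z hz
      rw [← h]
      simp only [sz, Matrix.cons_val, su]
      constructor <;> linarith
  refine ⟨_, fun i => sz (lab i), hsz, card G.A, ?_, ?_⟩
  · have h := lp_mem (fun i => sz (lab i)) D hD
      (G.T.map fun τ => ({sa τ.1} + {sb τ.2.1} + {su τ.2.2} : Multiset ℚ))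
      (fun b hb => by
        obtain ⟨τ, hτ, rfl⟩ := mem_map.1 hb
        have := hG.hT τ hτ
        simp only [sum_add, sum_singleton, sa, sb, su]
        linarith)
      (by
        have h1 : Finset.univ.val.map (fun i => sz (lab i)) = X.map sz := by
          rw [← congrArg (Multiset.map sz) hlab, Multiset.map_map]; rfl
        have h2 : ∀ g : Tri → ℚ, (G.T.map fun τ => ({g τ} : Multiset ℚ)).sum = G.T.map g :=
          fun g => by
            rw [← sum_map_singleton (G.T.map g), Multiset.map_map]; rfl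
        have h3 := congrArg (Multiset.map sa) hG.hTa
        have h4 := congrArg (Multiset.map sb) hG.hTb
        have h5 := congrArg (Multiset.map su) hTU
        rw [Multiset.map_map, Multiset.map_nsmul] at h3 h4 h5
        rw [h1, sum_map_add, sum_map_add, h2, h2, h2]
        simp only [X, Multiset.map_add, Multiset.map_map, smul_add]
        congr 1
        congr 1)
    rw [card_map, hTc] at h
    have hD' : (D : ℝ) ≠ 0 := by exact_mod_cast hD.ne'
    convert h using 1
    push_cast
    field_simp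
  · by_contra hc
    have hne : {k : ℕ | ∃ f : Fin X.toList.length → Fin k, ∀ j : Fin k,
        ∑ i : Fin X.toList.length with f i = j, sz (lab i) ≤ 1}.Nonempty :=
      ⟨_, id, fun j => by
        have : Finset.univ.filter (fun i => id i = j) = {j} := by ext; simp
        rw [this, Finset.sum_singleton]
        linarith [(hsz j).2]⟩
    obtain ⟨k, hk, f, hf⟩ : ∃ k ≤ card G.A + c, ∃ f : Fin X.toList.length → Fin k, ∀ j : Fin k,
        ∑ i : Fin X.toList.length with f i = j, sz (lab i) ≤ 1 :=
      ⟨_, not_lt.1 hc, Nat.sInf_mem hne⟩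
    let bins := fun j => (Finset.univ.filter fun i => f i = j).val.map lab
    have hbins : ∑ j, bins j = X := by
      have h1 : ∀ s : Finset (Fin X.toList.length), s.val.map lab = ∑ i ∈ s, {lab i} := fun s => by
        rw [Finset.sum, ← sum_map_singleton (s.val.map lab), Multiset.map_map]; rfl
      simp only [bins, h1]
      rw [Finset.sum_fiberwise, ← h1, hlab]
    refine core c G hG U (le_add_right _ _) (fun d hd => (hU0 d hd).1)
      (by simp only [U, card_add, card_replicate]; omega) k hk
      (fun j => part 0 (bins j)) (fun j => part 1 (bins j)) (fun j => part 2 (bins j))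
      ?_ ?_ ?_ fun j => ?_
    · rw [← part_sum, hbins]; simp [X, part_add, part_map]
    · rw [← part_sum, hbins]; simp [X, part_add, part_map]
    · rw [← part_sum, hbins]; simp [X, part_add, part_map]
    · rw [← sum_sz]
      simp only [bins, Multiset.map_map]
      exact hf j

end Vale.Agent.P302
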